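import Mathlib

/-!
# Thorp shuffle (S0222), GAP, Lemma B of `notes/s0222/helper82_gap_proof.md` — abstract form

`lemmaB_abstract`: for a monotone set function `q : Finset W → ℝ` with values in `[0, B]`
(in the application `q Y = ⟪b, EE_Y b⟫`, `EE_Y` the nested conditional expectations, `B = ‖b‖²`)
and coefficients `γ` with `γ ≥ 0`, `U_j ≤ 1`, `L_j ≤ 1`:
  `∑_{Z ⊆ W} (-1)^{|Z|} γ_{|Z|} q (W \ Z) ≤ 2^{k-2} B`,  `k = |W| ≥ 2`.
`gam_*`: the coefficients `γ_j = (m-k+j)_j / (m)_j` satisfy the hypotheses for `2 ≤ k ≤ m`.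
Everything is elementary and complete.
-/

set_option autoImplicit false

namespace Crest.Agent.Helper75.Thorp

open Finset

/-- The four-term block `γ_j q(Y12) - γ_{j+1} (q(Y1) + q(Y2)) + γ_{j+2} q(Y)` lies in `[-B, B]`. -/
theorem block_bounds (g0 g1 g2 q12 q1 q2 q0 B : ℝ)
    (_hg0 : 0 ≤ g0) (hg1 : 0 ≤ g1) (hg2 : 0 ≤ g2)
    (hU : g0 + max (g2 - 2 * g1) 0 ≤ 1) (hL : max (2 * g1 - g0) 0 ≤ 1)
    (h0 : 0 ≤ q0) (h01 : q0 ≤ q1) (h02 : q0 ≤ q2) (h112 : q1 ≤ q12) (h212 : q2 ≤ q12)
    (h12B : q12 ≤ B) :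
    |g0 * q12 - g1 * (q1 + q2) + g2 * q0| ≤ B := by
  have hB : 0 ≤ B := le_trans (le_trans h0 (le_trans h01 h112)) h12B
  have hq12 : 0 ≤ q12 := le_trans h0 (le_trans h01 h112)
  rw [abs_le]
  constructor
  · -- lower bound
    have h1 : g1 * (q1 + q2) ≤ g1 * (2 * q12) :=
      mul_le_mul_of_nonneg_left (by linarith) hg1
    have h2 : 0 ≤ g2 * q0 := mul_nonneg hg2 h0
    have hL1 : 2 * g1 - g0 ≤ 1 := le_trans (le_max_left _ _) hL
    by_cases hc : 0 ≤ g0 - 2 * g1
    · have : 0 ≤ (g0 - 2 * g1) * q12 := mul_nonneg hc hq12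
      nlinarith
    · rw [not_le] at hc
      have : (2 * g1 - g0) * q12 ≤ 1 * B := by
        apply mul_le_mul hL1 h12B hq12 (by norm_num)
      nlinarith
  · -- upper bound
    have h1 : g1 * (2 * q0) ≤ g1 * (q1 + q2) :=
      mul_le_mul_of_nonneg_left (by linarith) hg1
    have hq0le : q0 ≤ q12 := le_trans h01 h112
    by_cases hc : 0 ≤ g2 - 2 * g1
    · have hU1 : g0 + (g2 - 2 * g1) ≤ 1 := by
        have := le_max_left (g2 - 2 * g1) 0
        linarith
      have h3 : (g2 - 2 * g1) * q0 ≤ (g2 - 2 * g1) * q12 :=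
        mul_le_mul_of_nonneg_left hq0le hc
      have h4 : (g0 + (g2 - 2 * g1)) * q12 ≤ 1 * B := by
        apply mul_le_mul hU1 h12B hq12 (by norm_num)
      nlinarith
    · rw [not_le] at hc
      have hU1 : g0 ≤ 1 := by
        have := le_max_right (g2 - 2 * g1) 0
        linarith
      have h3 : (g2 - 2 * g1) * q0 ≤ 0 := mul_nonpos_of_nonpos_of_nonneg hc.le h0
      have h4 : g0 * q12 ≤ 1 * B := by
        apply mul_le_mul hU1 h12B hq12 (by norm_num)
      nlinarith

/-- **Lemma B, abstract form.** -/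
theorem lemmaB_abstract {W : Type*} [Fintype W] [DecidableEq W] (a b : W) (hab : a ≠ b)
    (γ : ℕ → ℝ) (q : Finset W → ℝ) (B : ℝ)
    (hq0 : ∀ Y, 0 ≤ q Y) (hqB : ∀ Y, q Y ≤ B) (hmono : ∀ Y Y', Y ⊆ Y' → q Y ≤ q Y')
    (hγ : ∀ j, j ≤ Fintype.card W → 0 ≤ γ j)
    (hU : ∀ j, j + 2 ≤ Fintype.card W → γ j + max (γ (j + 2) - 2 * γ (j + 1)) 0 ≤ 1)
    (hL : ∀ j, j + 2 ≤ Fintype.card W → max (2 * γ (j + 1) - γ j) 0 ≤ 1) :
    |∑ Z : Finset W, (-1 : ℝ) ^ Z.card * γ Z.card * q Zᶜ|
      ≤ (2 : ℝ) ^ (Fintype.card W - 2) * B := by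
  classical
  set S : Finset W := (univ.erase a).erase b with hS
  have haS : a ∉ insert b S := by
    simp [hS, hab]
  have hbS : b ∉ S := by simp [hS]
  have huniv : (univ : Finset W) = insert a (insert b S) := by
    ext x
    simp only [mem_univ, hS, mem_insert, mem_erase, ne_eq, and_true, true_iff]
    by_cases hxa : x = a
    · exact Or.inl hxa
    · by_cases hxb : x = b
      · exact Or.inr (Or.inl hxb)
      · exact Or.inr (Or.inr ⟨hxb, hxa⟩)
  have hcardS : S.card + 2 = Fintype.card W := by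
    have h1 : (insert a (insert b S)).card = S.card + 2 := by
      rw [card_insert_of_notMem haS, card_insert_of_notMem hbS]
    rw [← huniv] at h1
    rw [← h1, card_univ]
  set F : Finset W → ℝ := fun Z => (-1 : ℝ) ^ Z.card * γ Z.card * q Zᶜ with hF
  have hsum : ∑ Z : Finset W, F Z
      = ∑ Z ∈ S.powerset, (F Z + F (insert b Z) + (F (insert a Z) + F (insert a (insert b Z)))) := by
    have h0 : ∑ Z : Finset W, F Z = ∑ Z ∈ (univ : Finset W).powerset, F Z := by
      rw [powerset_univ]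
    rw [h0, huniv, sum_powerset_insert haS, sum_powerset_insert hbS, sum_powerset_insert hbS,
      ← sum_add_distrib, ← sum_add_distrib, ← sum_add_distrib]
  rw [hsum]
  have hterm : ∀ Z ∈ S.powerset,
      |F Z + F (insert b Z) + (F (insert a Z) + F (insert a (insert b Z)))| ≤ B := by
    intro Z hZ
    rw [mem_powerset] at hZ
    have haZ : a ∉ Z := fun h => by
      have := hZ h
      simp [hS] at this
    have hbZ : b ∉ Z := fun h => hbS (hZ h)
    have haZb : a ∉ insert b Z := by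
      simp [hab, haZ]
    have hj : Z.card + 2 ≤ Fintype.card W := by
      have := card_le_card hZ
      omega
    have hc1 : (insert b Z).card = Z.card + 1 := card_insert_of_notMem hbZ
    have hc2 : (insert a Z).card = Z.card + 1 := card_insert_of_notMem haZ
    have hc3 : (insert a (insert b Z)).card = Z.card + 2 := by
      rw [card_insert_of_notMem haZb, hc1]
    simp only [hF, hc1, hc2, hc3]
    have hblock := block_bounds (γ Z.card) (γ (Z.card + 1)) (γ (Z.card + 2))
      (q Zᶜ) (q (insert b Z)ᶜ) (q (insert a Z)ᶜ) (q (insert a (insert b Z))ᶜ) B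
      (hγ _ (by omega)) (hγ _ (by omega)) (hγ _ (by omega)) (hU _ hj) (hL _ hj)
      (hq0 _)
      (hmono _ _ (by rw [compl_subset_compl]; exact subset_insert _ _))
      (hmono _ _ (by
        rw [compl_subset_compl]; exact insert_subset_insert _ (subset_insert _ _)))
      (hmono _ _ (by rw [compl_subset_compl]; exact subset_insert _ _))
      (hmono _ _ (by rw [compl_subset_compl]; exact subset_insert _ _))
      (hqB _)
    have hsign : ∀ j : ℕ, ((-1 : ℝ) ^ j = 1 ∨ (-1 : ℝ) ^ j = -1) := fun j => by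
      rcases Nat.even_or_odd j with h | h
      · exact Or.inl h.neg_one_pow
      · exact Or.inr h.neg_one_pow
    have hp1 : (-1 : ℝ) ^ (Z.card + 1) = -(-1 : ℝ) ^ Z.card := by ring
    have hp2 : (-1 : ℝ) ^ (Z.card + 2) = (-1 : ℝ) ^ Z.card := by ring
    rw [hp1, hp2]
    rw [abs_le] at hblock ⊢
    rcases hsign Z.card with h | h <;> rw [h] <;> constructor <;> nlinarith [hblock.1, hblock.2]
  calc |∑ Z ∈ S.powerset, (F Z + F (insert b Z) + (F (insert a Z) + F (insert a (insert b Z))))|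
      ≤ ∑ Z ∈ S.powerset, |F Z + F (insert b Z) + (F (insert a Z) + F (insert a (insert b Z)))| :=
        abs_sum_le_sum_abs _ _
    _ ≤ ∑ _Z ∈ S.powerset, B := sum_le_sum hterm
    _ = (2 : ℝ) ^ (Fintype.card W - 2) * B := by
        rw [sum_const, card_powerset, nsmul_eq_mul]
        have : Fintype.card W - 2 = S.card := by omega
        rw [this]
        push_cast
        ring

end Crest.Agent.Helper75.Thorp
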