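import Mathlib
import Crest.Agent.Helper75.Thorp.LemmaB

/-!
# The coefficients `γ_j = (m-k+j)_j / (m)_j` of Lemma B (Thorp GAP, helper82 §1–2)

For `2 ≤ k ≤ m`: `0 < γ_j ≤ 1` (`j ≤ k`), `γ_0 = γ_k = 1`, and for `j + 2 ≤ k`
`U_j = γ_j + (γ_{j+2} - 2γ_{j+1})₊ ≤ 1`, `L_j = (2γ_{j+1} - γ_j)₊ ≤ 1`.
-/

set_option autoImplicit false

namespace Crest.Agent.Helper75.Thorp

/-- `γ_j = (m-k+j)_j / (m)_j` (falling factorials). -/
noncomputable def gam (m k j : ℕ) : ℝ :=
  ((m - k + j).descFactorial j : ℝ) / (m.descFactorial j : ℝ)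

theorem gam_zero (m k : ℕ) : gam m k 0 = 1 := by
  simp [gam]

theorem gam_pos (m k j : ℕ) (hkm : k ≤ m) (hj : j ≤ k) : 0 < gam m k j := by
  unfold gam
  apply div_pos
  · exact_mod_cast Nat.descFactorial_pos.mpr (by omega)
  · exact_mod_cast Nat.descFactorial_pos.mpr (by omega)

theorem gam_le_one (m k j : ℕ) (hkm : k ≤ m) (hj : j ≤ k) : gam m k j ≤ 1 := by
  unfold gam
  rw [div_le_one (by exact_mod_cast Nat.descFactorial_pos.mpr (by omega))]
  exact_mod_cast Nat.descFactorial_le j (by omega : m - k + j ≤ m)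

theorem gam_self (m k : ℕ) (hkm : k ≤ m) : gam m k k = 1 := by
  unfold gam
  have : m - k + k = m := by omega
  rw [this]
  exact div_self (by exact_mod_cast (Nat.descFactorial_pos.mpr (by omega)).ne')

theorem gam_succ (m k j : ℕ) (hkm : k ≤ m) (hj : j < k) :
    gam m k (j + 1) = gam m k j * (((m - k + j + 1 : ℕ) : ℝ) / ((m - j : ℕ) : ℝ)) := by
  unfold gam
  have h1 : (m - k + (j + 1)).descFactorial (j + 1)
      = (m - k + j + 1) * (m - k + j).descFactorial j := by
    have : m - k + (j + 1) = (m - k + j) + 1 := by omega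
    rw [this, Nat.succ_descFactorial_succ]
  have h2 : m.descFactorial (j + 1) = (m - j) * m.descFactorial j := Nat.descFactorial_succ m j
  rw [h1, h2]
  have hd : ((m.descFactorial j : ℕ) : ℝ) ≠ 0 := by
    exact_mod_cast (Nat.descFactorial_pos.mpr (by omega)).ne'
  have hmj : ((m - j : ℕ) : ℝ) ≠ 0 := by
    have : 0 < m - j := by omega
    exact_mod_cast this.ne'
  push_cast
  field_simp

/-- The hypotheses of `lemmaB_abstract` for `γ = gam m k`, `2 ≤ k ≤ m`. -/
theorem gam_UL (m k j : ℕ) (hkm : k ≤ m) (hj : j + 2 ≤ k) :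
    gam m k j + max (gam m k (j + 2) - 2 * gam m k (j + 1)) 0 ≤ 1 ∧
    max (2 * gam m k (j + 1) - gam m k j) 0 ≤ 1 := by
  have hg0 : 0 < gam m k j := gam_pos m k j hkm (by omega)
  have hg0le : gam m k j ≤ 1 := gam_le_one m k j hkm (by omega)
  have hg2le : gam m k (j + 2) ≤ 1 := gam_le_one m k (j + 2) hkm (by omega)
  -- ratios
  set a : ℝ := ((m - k + j + 1 : ℕ) : ℝ) with ha
  set d : ℝ := ((m - j : ℕ) : ℝ) with hd
  have hd2 : (2 : ℝ) ≤ d := by
    have : 2 ≤ m - j := by omega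
    rw [hd]; exact_mod_cast this
  have ha1 : (1 : ℝ) ≤ a := by
    have : 1 ≤ m - k + j + 1 := by omega
    rw [ha]; exact_mod_cast this
  have h1 : gam m k (j + 1) = gam m k j * (a / d) := gam_succ m k j hkm (by omega)
  have h2 : gam m k (j + 2) = gam m k (j + 1) * ((a + 1) / (d - 1)) := by
    have := gam_succ m k (j + 1) hkm (by omega)
    rw [this]
    congr 2
    · have : m - k + (j + 1) + 1 = (m - k + j + 1) + 1 := by omega
      rw [this, ha]; push_cast; ring
    · have h3 : m - (j + 1) + 1 = m - j := by omega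
      have h4 : ((m - (j + 1) + 1 : ℕ) : ℝ) = ((m - j : ℕ) : ℝ) := by rw [h3]
      rw [hd]; push_cast at h4 ⊢; linarith
  set g := gam m k j with hg
  set r : ℝ := a / d with hr
  set r' : ℝ := (a + 1) / (d - 1) with hr'
  have hdpos : 0 < d := by linarith
  have hd1pos : 0 < d - 1 := by linarith
  have hrpos : 0 < r := div_pos (by linarith) hdpos
  have hrr' : r ≤ r' := by
    rw [hr, hr', div_le_div_iff₀ hdpos hd1pos]
    nlinarith
  have hg1 : gam m k (j + 1) = g * r := h1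
  have hg2 : gam m k (j + 2) = g * r * r' := by rw [h2, h1]
  rw [hg2] at hg2le
  rw [hg1, hg2]
  constructor
  · -- U
    rcases le_or_gt (g * r * r' - 2 * (g * r)) 0 with hc | hc
    · rw [max_eq_right hc]; linarith
    · rw [max_eq_left hc.le]
      -- r' > 2, hence r ≥ 1/2
      have hgr : 0 < g * r := mul_pos hg0 hrpos
      have hr'2 : 2 < r' := by
        by_contra hcon
        rw [not_lt] at hcon
        have : g * r * (r' - 2) ≤ 0 := mul_nonpos_of_nonneg_of_nonpos hgr.le (by linarith)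
        nlinarith
      have hA : 2 * (d - 1) < a + 1 := by
        rw [hr', lt_div_iff₀ hd1pos] at hr'2
        linarith
      have hrhalf : 1 / 2 ≤ r := by
        rw [hr, le_div_iff₀ hdpos]
        nlinarith
      have : g - 2 * (g * r) ≤ 0 := by nlinarith
      linarith
  · -- L
    apply max_le _ (by norm_num)
    have h4 : 2 * r - 1 ≤ r * r' := by nlinarith [sq_nonneg (r - 1)]
    have h3 : 2 * (g * r) - g ≤ g * r * r' := by nlinarith
    linarith

/-- **Lemma B (quadratic-form version), ready to use.**  `W` a finite index set with `k = |W|`,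
`2 ≤ k ≤ m`; `q : Finset W → ℝ` monotone with values in `[0, B]` (in the application
`q Y = ⟪b, EE_Y b⟫`, `B = ‖b‖²`).  Then
`|2^{-k} ∑_{Z ⊆ W} (-1)^{|Z|} γ_{|Z|} q (W \ Z)| ≤ B / 4`, `γ_j = (m-k+j)_j/(m)_j`. -/
theorem lemmaB_gam {W : Type*} [Fintype W] [DecidableEq W] (m : ℕ)
    (hk2 : 2 ≤ Fintype.card W) (hkm : Fintype.card W ≤ m)
    (q : Finset W → ℝ) (B : ℝ)
    (hq0 : ∀ Y, 0 ≤ q Y) (hqB : ∀ Y, q Y ≤ B) (hmono : ∀ Y Y', Y ⊆ Y' → q Y ≤ q Y') :
    |(∑ Z : Finset W, (-1 : ℝ) ^ Z.card * gam m (Fintype.card W) Z.card * q Zᶜ)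
        / (2 : ℝ) ^ Fintype.card W| ≤ B / 4 := by
  classical
  obtain ⟨a, b, hab⟩ : ∃ a b : W, a ≠ b := by
    have h1 : 1 < Fintype.card W := by omega
    obtain ⟨a, b, hab⟩ := Fintype.exists_pair_of_one_lt_card h1
    exact ⟨a, b, hab⟩
  have key := lemmaB_abstract a b hab (gam m (Fintype.card W)) q B hq0 hqB hmono
    (fun j hj => (gam_pos m _ j hkm hj).le)
    (fun j hj => (gam_UL m _ j hkm hj).1)
    (fun j hj => (gam_UL m _ j hkm hj).2)
  have h2 : (0 : ℝ) < (2 : ℝ) ^ Fintype.card W := by positivity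
  rw [abs_div, abs_of_pos h2, div_le_iff₀ h2]
  have h3 : (2 : ℝ) ^ Fintype.card W = (2 : ℝ) ^ (Fintype.card W - 2) * 4 := by
    have : Fintype.card W = (Fintype.card W - 2) + 2 := by omega
    conv_lhs => rw [this]
    rw [pow_add]; norm_num
  rw [h3]
  calc _ ≤ (2 : ℝ) ^ (Fintype.card W - 2) * B := key
    _ = B / 4 * ((2 : ℝ) ^ (Fintype.card W - 2) * 4) := by ring

end Crest.Agent.Helper75.Thorp
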